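import Mathlib
import Vale.Agent.P267.Statement

/-!
# P267 / G-KATO (helper498), part 1: from a contracting germ to a global spherical shell (core).
-/

open scoped Manifold ContDiff Topology
open Vale.Agent.P272.K Set Filter

namespace Vale.Agent.P267.H498

noncomputable section

/-- Euclidean norm on `ℂ²`. -/
def en (z : Cm 2) : ℝ := Real.sqrt (‖z 0‖ ^ 2 + ‖z 1‖ ^ 2)

lemma en_nonneg (z : Cm 2) : 0 ≤ en z := Real.sqrt_nonneg _

lemma en_sq (z : Cm 2) : en z ^ 2 = ‖z 0‖ ^ 2 + ‖z 1‖ ^ 2 := Real.sq_sqrt (by positivity)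

lemma continuous_en : Continuous en := by
  unfold en
  exact (((continuous_apply 0).norm.pow 2).add ((continuous_apply 1).norm.pow 2)).sqrt

lemma en_toLp (z : Cm 2) : en z = ‖(WithLp.toLp 2 z : EuclideanSpace ℂ (Fin 2))‖ := by
  rw [EuclideanSpace.norm_eq]
  simp [en, Fin.sum_univ_two]

lemma en_smul (c : ℂ) (z : Cm 2) : en (c • z) = ‖c‖ * en z := by
  rw [en_toLp, en_toLp, ← norm_smul]
  rfl

lemma en_add_le (z w : Cm 2) : en (z + w) ≤ en z + en w := by
  rw [en_toLp, en_toLp, en_toLp]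
  exact norm_add_le _ _

lemma en_eq_zero_iff {z : Cm 2} : en z = 0 ↔ z = 0 := by
  rw [en_toLp, norm_eq_zero]
  constructor
  · intro h
    have := congrArg (WithLp.ofLp) h
    simpa using this
  · rintro rfl
    simp

lemma en_zero : en 0 = 0 := en_eq_zero_iff.2 rfl

lemma en_pos {z : Cm 2} (h : z ≠ 0) : 0 < en z :=
  lt_of_le_of_ne (en_nonneg z) fun h' => h (en_eq_zero_iff.1 h'.symm)

lemma norm_le_en (z : Cm 2) : ‖z‖ ≤ en z := by
  rw [pi_norm_le_iff_of_nonneg (en_nonneg z)]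
  intro i
  apply Real.le_sqrt_of_sq_le
  fin_cases i
  · simp
  · simp

lemma en_le (z : Cm 2) : en z ≤ 2 * ‖z‖ := by
  unfold en
  rw [Real.sqrt_le_left (by positivity)]
  have h0 := norm_le_pi_norm z 0
  have h1 := norm_le_pi_norm z 1
  have := norm_nonneg (z 0)
  have := norm_nonneg (z 1)
  nlinarith

lemma isConnected_en_sphere {ρ : ℝ} (hρ : 0 ≤ ρ) : IsConnected {z : Cm 2 | en z = ρ} := by
  have hr : 1 < Module.rank ℝ (EuclideanSpace ℂ (Fin 2)) := by
    have h1 : Module.rank ℝ (EuclideanSpace ℂ (Fin 2)) = Module.rank ℝ (Fin 2 → ℂ) :=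
      LinearEquiv.rank_eq (WithLp.linearEquiv 2 ℝ (Fin 2 → ℂ))
    rw [h1]
    have h2 : Module.finrank ℝ (Fin 2 → ℂ) = 4 := by
      rw [Module.finrank_pi_fintype]
      simp [Complex.finrank_real_complex]
    rw [← Module.finrank_eq_rank, h2]
    norm_cast
  have h := isConnected_sphere hr (0 : EuclideanSpace ℂ (Fin 2)) hρ
  have himg : {z : Cm 2 | en z = ρ} = WithLp.ofLp '' Metric.sphere (0 : EuclideanSpace ℂ (Fin 2)) ρ := by
    ext z
    constructor
    · intro hz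
      refine ⟨WithLp.toLp 2 z, ?_, rfl⟩
      rw [mem_sphere_zero_iff_norm, ← en_toLp]
      exact hz
    · rintro ⟨w, hw, rfl⟩
      rw [mem_sphere_zero_iff_norm] at hw
      show en w.ofLp = ρ
      rw [en_toLp]
      exact hw
  rw [himg]
  exact h.image _ (PiLp.continuous_ofLp 2 _).continuousOn

section Core

variable {X M : Type*} [TopologicalSpace X] [ChartedSpace (Cm 2) X]
  [TopologicalSpace M] [ChartedSpace (Cm 2) M] [ConnectedSpace M]

/-- **Core of G-KATO**: contracting version with respect to the Euclidean norm. -/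
theorem hasGSS_core
    (p : M → X) (g : M ≃ₜ M) (f : M → ℝ)
    (hp : MDifferentiable 𝓘(ℂ, Cm 2) 𝓘(ℂ, Cm 2) p) (hps : Function.Surjective p)
    (hpo : IsOpenMap p)
    (hpq : ∀ x, ∃ q : X → M, MDifferentiableAt 𝓘(ℂ, Cm 2) 𝓘(ℂ, Cm 2) q (p x) ∧ q (p x) = x ∧
      ∀ᶠ y in 𝓝 (p x), p (q y) = y)
    (hpg : ∀ x y, p x = p y ↔ ∃ k : ℤ, (g ^ k) x = y)
    (hfg : ∀ x, f (g x) = f x - 1)
    {U : Set M} (hU : IsOpen U) {φ : M → Cm 2} {ψ : Cm 2 → M} {r : ℝ} (hr : 0 < r)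
    (hφ : MDifferentiableOn 𝓘(ℂ, Cm 2) 𝓘(ℂ, Cm 2) φ U)
    (hψ : MDifferentiableOn 𝓘(ℂ, Cm 2) 𝓘(ℂ, Cm 2) ψ {z | 0 < en z ∧ en z < r})
    (hψU : ∀ z, 0 < en z → en z < r → ψ z ∈ U ∧ φ (ψ z) = z)
    (hψφ : ∀ x ∈ U, 0 < en (φ x) → en (φ x) < r → ψ (φ x) = x)
    (hcl : ∀ ρ, ρ < r → IsClosed {x | x ∈ U ∧ en (φ x) ≤ ρ})
    (hin : ∀ ρ, 0 < ρ → ∃ R, ∀ x, f x ≤ R → x ∈ U ∧ en (φ x) < ρ)
    (hout : ∃ R, ∀ x ∈ U, f x ≤ R)
    {c : ℝ} (hc0 : 0 ≤ c) (hc1 : c < 1)
    (hcon : ∀ x ∈ U, en (φ x) < r → g x ∈ U ∧ en (φ (g x)) ≤ c * en (φ x)) :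
    HasGSS X := by
  -- constants
  set δ : ℝ := (1 - c) / 4 with hδ
  have hδ0 : 0 < δ := by rw [hδ]; linarith
  have hδ1 : δ ≤ 1 / 4 := by rw [hδ]; linarith
  set ρ : ℝ := r / 2 with hρ
  have hρ0 : 0 < ρ := by rw [hρ]; linarith
  set ρ₁ : ℝ := ρ * (1 - δ) with hρ₁
  set ρ₂ : ℝ := ρ * (1 + δ) with hρ₂
  have h10 : 0 < ρ₁ := by rw [hρ₁]; apply mul_pos hρ0; linarith
  have h12 : ρ₁ < ρ₂ := by rw [hρ₁, hρ₂]; nlinarith
  have h20 : 0 < ρ₂ := h10.trans h12
  have h2r : ρ₂ < r := by rw [hρ₂, hρ]; nlinarith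
  have h1r : ρ₁ < r := h12.trans h2r
  have hc21 : c * ρ₂ < ρ₁ := by
    rw [hρ₁, hρ₂]
    have : c * (1 + δ) < 1 - δ := by rw [hδ]; nlinarith
    nlinarith
  have hφc : ContinuousOn φ U := hφ.continuousOn
  have heφ : ContinuousOn (fun x => en (φ x)) U := continuous_en.comp_continuousOn hφc
  -- sublevel sets
  set W : ℝ → Set M := fun s => {x | x ∈ U ∧ en (φ x) < s} with hW
  set Wc : ℝ → Set M := fun s => {x | x ∈ U ∧ en (φ x) ≤ s} with hWc
  have hWo : ∀ s, IsOpen (W s) := by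
    intro s
    have := heφ.isOpen_inter_preimage hU (isOpen_Iio (a := s))
    exact this
  have hWmono : ∀ s t, s ≤ t → W s ⊆ W t := fun s t h x hx => ⟨hx.1, lt_of_lt_of_le hx.2 h⟩
  -- powers
  have hfk : ∀ (k : ℕ) x, f ((g ^ k) x) = f x - k := by
    intro k
    induction k with
    | zero => intro x; simp
    | succ n ih =>
      intro x
      have e : (g ^ (n + 1)) x = (g ^ n) (g x) := by rw [pow_succ]; rfl
      rw [e, ih, hfg]; push_cast; ring
  have hfz : ∀ (k : ℤ) x, f ((g ^ k) x) = f x - k := by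
    intro k x
    obtain ⟨n, rfl | rfl⟩ := k.eq_nat_or_neg
    · rw [zpow_natCast, hfk]; simp
    · have h := hfk n ((g ^ (-(n : ℤ))) x)
      have e : (g ^ n) ((g ^ (-(n : ℤ))) x) = x := by
        have : (g ^ n * g ^ (-(n : ℤ))) x = x := by
          rw [← zpow_natCast, ← zpow_add]; simp
        exact this
      rw [e] at h
      push_cast
      linarith
  have hgW : ∀ (k : ℕ), 1 ≤ k → ∀ s, s ≤ r → ∀ x ∈ W s, (g ^ k) x ∈ U ∧ en (φ ((g ^ k) x)) ≤ c * en (φ x) := by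
    intro k hk
    induction k, hk using Nat.le_induction with
    | base =>
      intro s hs x hx
      simpa using hcon x hx.1 (lt_of_lt_of_le hx.2 hs)
    | succ n hn ih =>
      intro s hs x hx
      obtain ⟨h1, h2⟩ := ih s hs x hx
      have h3 : en (φ ((g ^ n) x)) ≤ en (φ x) :=
        h2.trans (mul_le_of_le_one_left (en_nonneg _) hc1.le)
      have h4 : en (φ ((g ^ n) x)) < r := lt_of_le_of_lt h3 (lt_of_lt_of_le hx.2 hs)
      obtain ⟨h5, h6⟩ := hcon _ h1 h4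
      have e : (g ^ (n + 1)) x = g ((g ^ n) x) := by rw [pow_succ']; rfl
      rw [e]
      exact ⟨h5, h6.trans (mul_le_mul_of_nonneg_left h3 hc0)⟩
  -- spheres
  set S1 : Set M := {x | x ∈ U ∧ en (φ x) = ρ₁} with hS1
  set S2 : Set M := {x | x ∈ U ∧ en (φ x) = ρ₂} with hS2
  have hsph : ∀ s, 0 < s → s < r → IsConnected {x | x ∈ U ∧ en (φ x) = s} := by
    intro s hs hsr
    have e : {x | x ∈ U ∧ en (φ x) = s} = ψ '' {z | en z = s} := by
      ext x
      constructor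
      · rintro ⟨h1, h2⟩
        exact ⟨φ x, h2, hψφ x h1 (by rw [h2]; exact hs) (by rw [h2]; exact hsr)⟩
      · rintro ⟨z, hz, rfl⟩
        have hz' : en z = s := hz
        obtain ⟨h1, h2⟩ := hψU z (by rw [hz']; exact hs) (by rw [hz']; exact hsr)
        exact ⟨h1, by rw [h2]; exact hz⟩
    rw [e]
    apply (isConnected_en_sphere hs.le).image
    apply hψ.continuousOn.mono
    intro z hz
    have hz' : en z = s := hz
    exact ⟨by rw [hz']; exact hs, by rw [hz']; exact hsr⟩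
  have hS1c : IsConnected S1 := hsph ρ₁ h10 h1r
  have hS2c : IsConnected (g '' S2) := (hsph ρ₂ h20 h2r).image _ g.continuous.continuousOn
  -- the complementary region
  set A : Set M := Wc ρ₁ \ (g '' W ρ₂) with hA
  have hgWo : IsOpen (g '' W ρ₂) := g.isOpenMap _ (hWo ρ₂)
  have hgWcc : IsClosed (g '' Wc ρ₂) := g.isClosedMap _ (hcl ρ₂ h2r)
  have hAcl : IsClosed A := (hcl ρ₁ h1r).sdiff hgWo
  have hgsub : g '' Wc ρ₂ ⊆ W ρ₁ := by
    rintro _ ⟨x, hx, rfl⟩
    obtain ⟨h1, h2⟩ := hcon x hx.1 (lt_of_le_of_lt hx.2 h2r)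
    exact ⟨h1, lt_of_le_of_lt (h2.trans (mul_le_mul_of_nonneg_left hx.2 hc0)) hc21⟩
  have hS1A : S1 ⊆ A := by
    intro x hx
    refine ⟨⟨hx.1, hx.2.le⟩, ?_⟩
    rintro ⟨y, hy, rfl⟩
    have := (hgsub ⟨y, ⟨hy.1, hy.2.le⟩, rfl⟩).2
    have h2 := hx.2
    linarith
  have hS2A : g '' S2 ⊆ A := by
    rintro _ ⟨x, hx, rfl⟩
    have h1 := hgsub ⟨x, ⟨hx.1, hx.2.le⟩, rfl⟩
    refine ⟨⟨h1.1, h1.2.le⟩, ?_⟩
    rintro ⟨y, hy, hyx⟩
    have : y = x := g.injective hyx
    subst this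
    have h2 := hy.2
    have h3 := hx.2
    linarith
  have hApre : IsPreconnected A := by
    -- one-sided statement
    have key : ∀ P Q : Set M, IsClosed P → IsClosed Q → A ⊆ P ∪ Q → (A ∩ Q).Nonempty →
        S1 ⊆ A ∩ P → A ∩ (P ∩ Q) = ∅ → False := by
      intro P Q hP hQ hAPQ hAQ hSP hemp
      have hP' : IsClosed (A ∩ P) := hAcl.inter hP
      have hQ' : IsClosed (A ∩ Q) := hAcl.inter hQ
      have hdisj : ∀ x, x ∈ A ∩ P → x ∈ A ∩ Q → False := by
        intro x h1 h2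
        have : x ∈ A ∩ (P ∩ Q) := ⟨h1.1, h1.2, h2.2⟩
        rw [hemp] at this
        exact this
      have hcases : g '' S2 ⊆ A ∩ P ∨ g '' S2 ⊆ A ∩ Q := by
        have hpc := hS2c.isPreconnected
        rw [isPreconnected_closed_iff] at hpc
        by_contra hno
        rw [not_or] at hno
        obtain ⟨hn1, hn2⟩ := hno
        obtain ⟨x, hx, hxP⟩ := not_subset.1 hn1
        obtain ⟨y, hy, hyQ⟩ := not_subset.1 hn2
        have hxQ : x ∈ A ∩ Q := by
          rcases hAPQ (hS2A hx) with h | h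
          · exact absurd ⟨hS2A hx, h⟩ hxP
          · exact ⟨hS2A hx, h⟩
        have hyP : y ∈ A ∩ P := by
          rcases hAPQ (hS2A hy) with h | h
          · exact ⟨hS2A hy, h⟩
          · exact absurd ⟨hS2A hy, h⟩ hyQ
        obtain ⟨w, hw, hw2⟩ := hpc (A ∩ P) (A ∩ Q) hP' hQ' (fun z hz => by
          rcases hAPQ (hS2A hz) with h | h
          · exact Or.inl ⟨hS2A hz, h⟩
          · exact Or.inr ⟨hS2A hz, h⟩) ⟨y, hy, hyP⟩ ⟨x, hx, hxQ⟩
        exact hdisj w hw2.1 hw2.2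
      rcases hcases with hcase | hcase
      · -- both spheres in P: Q' is clopen
        have hopen : IsOpen (A ∩ Q) := by
          have e : A ∩ Q = (W ρ₁ \ g '' Wc ρ₂) ∩ (A ∩ P)ᶜ := by
            ext x
            constructor
            · intro hx
              refine ⟨⟨⟨hx.1.1.1, lt_of_le_of_ne hx.1.1.2 fun h => ?_⟩, ?_⟩, fun h => hdisj x h hx⟩
              · exact hdisj x (hSP ⟨hx.1.1.1, h⟩) hx
              · rintro ⟨y, hy, rfl⟩
                rcases lt_or_eq_of_le hy.2 with h | h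
                · exact hx.1.2 ⟨y, ⟨hy.1, h⟩, rfl⟩
                · exact hdisj _ (hcase ⟨y, ⟨hy.1, h⟩, rfl⟩) hx
            · rintro ⟨⟨h1, h2⟩, h3⟩
              have hxA : x ∈ A := by
                refine ⟨⟨h1.1, h1.2.le⟩, ?_⟩
                rintro ⟨y, hy, rfl⟩
                exact h2 ⟨y, ⟨hy.1, hy.2.le⟩, rfl⟩
              rcases hAPQ hxA with h | h
              · exact absurd ⟨hxA, h⟩ h3
              · exact ⟨hxA, h⟩
          rw [e]
          exact ((hWo ρ₁).sdiff hgWcc).inter hP'.isOpen_compl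
        have hclopen : IsClopen (A ∩ Q) := ⟨hQ', hopen⟩
        rcases isClopen_iff.1 hclopen with h | h
        · rw [h] at hAQ; exact not_nonempty_empty hAQ
        · obtain ⟨x, hx⟩ := hS1c.nonempty
          exact hdisj x (hSP hx) (by rw [h]; trivial)
      · -- the inner sphere in Q
        set T : Set M := (A ∩ P) ∪ (W ρ₁)ᶜ with hT
        have hTcl : IsClosed T := hP'.union (hWo ρ₁).isClosed_compl
        have hTc : Tᶜ = g '' Wc ρ₂ ∪ (A ∩ Q) := by
          ext x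
          constructor
          · intro hx
            have h1 : x ∉ A ∩ P := fun h => hx (Or.inl h)
            have h2 : x ∈ W ρ₁ := by
              by_contra h
              exact hx (Or.inr h)
            by_cases hxg : x ∈ g '' W ρ₂
            · obtain ⟨y, hy, rfl⟩ := hxg
              exact Or.inl ⟨y, ⟨hy.1, hy.2.le⟩, rfl⟩
            · have hxA : x ∈ A := ⟨⟨h2.1, h2.2.le⟩, hxg⟩
              rcases hAPQ hxA with h | h
              · exact absurd ⟨hxA, h⟩ h1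
              · exact Or.inr ⟨hxA, h⟩
          · rintro (hx | hx) hxT
            · rcases hxT with h | h
              · obtain ⟨y, hy, rfl⟩ := hx
                rcases lt_or_eq_of_le hy.2 with h' | h'
                · exact h.1.2 ⟨y, ⟨hy.1, h'⟩, rfl⟩
                · exact hdisj _ h (hcase ⟨y, ⟨hy.1, h'⟩, rfl⟩)
              · exact h (hgsub hx)
            · rcases hxT with h | h
              · exact hdisj x h hx
              · apply h
                refine ⟨hx.1.1.1, lt_of_le_of_ne hx.1.1.2 fun h' => ?_⟩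
                exact hdisj x (hSP ⟨hx.1.1.1, h'⟩) hx
        have hTo : IsOpen T := by
          rw [← isClosed_compl_iff, hTc]
          exact hgWcc.union hQ'
        rcases isClopen_iff.1 (⟨hTcl, hTo⟩ : IsClopen T) with h | h
        · obtain ⟨x, hx⟩ := hS1c.nonempty
          have : x ∈ T := Or.inl (hSP hx)
          rw [h] at this
          exact this
        · obtain ⟨x, hx⟩ := hAQ
          have h3 : x ∈ Tᶜ := by rw [hTc]; exact Or.inr hx
          rw [h] at h3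
          exact h3 trivial
    rw [isPreconnected_closed_iff]
    intro P Q hP hQ hAPQ hAP hAQ
    by_contra hne
    rw [not_nonempty_iff_eq_empty] at hne
    have hpc := hS1c.isPreconnected
    rw [isPreconnected_closed_iff] at hpc
    by_cases h1 : (S1 ∩ P).Nonempty
    · by_cases h2 : (S1 ∩ Q).Nonempty
      · obtain ⟨x, hx, hx2⟩ := hpc P Q hP hQ (hS1A.trans hAPQ) h1 h2
        have : x ∈ A ∩ (P ∩ Q) := ⟨hS1A hx, hx2⟩
        rw [hne] at this
        exact this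
      · apply key P Q hP hQ hAPQ hAQ _ hne
        intro x hx
        refine ⟨hS1A hx, ?_⟩
        rcases hAPQ (hS1A hx) with h | h
        · exact h
        · exact absurd ⟨x, hx, h⟩ h2
    · apply key Q P hQ hP (by rwa [union_comm]) hAP _ (by rwa [inter_comm Q P])
      intro x hx
      refine ⟨hS1A hx, ?_⟩
      rcases hAPQ (hS1A hx) with h | h
      · exact absurd ⟨x, hx, h⟩ h1
      · exact h
  have hAconn : IsConnected A := ⟨hS1c.nonempty.mono hS1A, hApre⟩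
  -- the shell
  set Sh : Set M := {x | x ∈ U ∧ ρ₁ < en (φ x) ∧ en (φ x) < ρ₂} with hSh
  have hSho : IsOpen Sh := by
    have := heφ.isOpen_inter_preimage hU (isOpen_Ioo (a := ρ₁) (b := ρ₂))
    exact this
  -- fundamental domain
  have hfund : ∀ x : M, ∃ k : ℤ, (g ^ k) x ∈ Sh ∪ A := by
    intro x
    obtain ⟨R₁, hR₁⟩ := hin ρ₂ h20
    obtain ⟨R₂, hR₂⟩ := hout
    have hex : ∃ k : ℤ, (g ^ k) x ∈ W ρ₂ := by
      obtain ⟨n, hn⟩ := exists_nat_ge (f x - R₁)
      refine ⟨n, hR₁ _ ?_⟩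
      rw [hfz]; push_cast; linarith
    have hbdd : ∀ k : ℤ, (g ^ k) x ∈ W ρ₂ → ⌊f x - R₂⌋ ≤ k := by
      intro k hk
      have := hR₂ _ hk.1
      rw [hfz] at this
      have h1 : (⌊f x - R₂⌋ : ℝ) ≤ f x - R₂ := Int.floor_le _
      have : (⌊f x - R₂⌋ : ℝ) ≤ (k : ℝ) := by linarith
      exact_mod_cast this
    obtain ⟨k, hk, hmin⟩ := Int.exists_least_of_bdd ⟨_, hbdd⟩ hex
    refine ⟨k, ?_⟩
    have hnot : (g ^ k) x ∉ g '' W ρ₂ := by
      rintro ⟨y, hy, hyk⟩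
      have e : (g ^ (k - 1)) x = y := by
        apply g.injective
        rw [hyk]
        have : g ((g ^ (k - 1)) x) = (g * g ^ (k - 1)) x := rfl
        rw [this]
        have e2 : g * g ^ (k - 1) = g ^ k := by
          rw [← zpow_one_add]; congr 1; ring
        rw [e2]
      have := hmin (k - 1) (by rw [e]; exact hy)
      omega
    by_cases h1 : en (φ ((g ^ k) x)) ≤ ρ₁
    · right
      exact ⟨⟨hk.1, h1⟩, hnot⟩
    · left
      rw [not_le] at h1
      exact ⟨hk.1, h1, hk.2⟩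
  have hkey : ∀ x y : M, x ∈ Sh → y ∈ W ρ₂ → y ∉ g '' W ρ₂ → p x = p y → x = y := by
    intro x y hx hy hyg hxy
    obtain ⟨k, hk⟩ := (hpg x y).1 hxy
    obtain ⟨n, rfl | rfl⟩ := k.eq_nat_or_neg
    · rw [zpow_natCast] at hk
      rcases Nat.eq_zero_or_pos n with rfl | hn
      · simpa using hk
      · exfalso
        apply hyg
        -- y = g^n x = g (g^(n-1) x)
        obtain ⟨m, rfl⟩ : ∃ m, n = m + 1 := ⟨n - 1, by omega⟩
        refine ⟨(g ^ m) x, ?_, ?_⟩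
        · rcases Nat.eq_zero_or_pos m with rfl | hm
          · rw [pow_zero]
            exact ⟨hx.1, hx.2.2⟩
          · obtain ⟨h1, h2⟩ := hgW m hm r le_rfl x ⟨hx.1, hx.2.2.trans h2r⟩
            refine ⟨h1, lt_of_le_of_lt h2 ?_⟩
            exact lt_of_le_of_lt (mul_le_of_le_one_left (en_nonneg _) hc1.le) hx.2.2
        · rw [← hk, pow_succ']; rfl
    · rcases Nat.eq_zero_or_pos n with rfl | hn
      · simpa using hk
      · exfalso
        have hx2 : (g ^ n) y = x := by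
          rw [← hk]
          have : (g ^ n * g ^ (-(n : ℤ))) x = x := by
            rw [← zpow_natCast, ← zpow_add]; simp
          exact this
        obtain ⟨h1, h2⟩ := hgW n hn r le_rfl y ⟨hy.1, hy.2.trans h2r⟩
        rw [hx2] at h2
        have h3 := hx.2.1
        have h4 : c * en (φ y) ≤ c * ρ₂ := mul_le_mul_of_nonneg_left hy.2.le hc0
        linarith
  have hShg : ∀ x ∈ Sh, x ∉ g '' W ρ₂ := by
    rintro x hx ⟨y, hy, rfl⟩
    have h1 := (hgsub ⟨y, ⟨hy.1, hy.2.le⟩, rfl⟩).2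
    have := hx.2.1
    linarith
  have hcompl : (p '' Sh)ᶜ = p '' A := by
    ext y
    constructor
    · intro hy
      obtain ⟨x, rfl⟩ := hps y
      obtain ⟨k, hk⟩ := hfund x
      have e : p ((g ^ k) x) = p x := ((hpg x _).2 ⟨k, rfl⟩).symm
      rcases hk with h | h
      · exact absurd ⟨_, h, e⟩ hy
      · exact ⟨_, h, e⟩
    · rintro ⟨x, hx, rfl⟩ ⟨y, hy, hxy⟩
      have : y = x := hkey y x hy ⟨hx.1.1, lt_of_le_of_lt hx.1.2 h12⟩ hx.2 hxy
      subst this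
      have h1 := hx.1.2
      have h2 := hy.2.1
      linarith
  -- the shell map
  set UU : Set (Cm 2) := {z | 1 - δ < en z ∧ en z < 1 + δ} with hUU
  have hsc : ∀ z : Cm 2, en ((ρ : ℂ) • z) = ρ * en z := by
    intro z
    rw [en_smul, Complex.norm_real, Real.norm_of_nonneg hρ0.le]
  have hUUr : ∀ z ∈ UU, ρ₁ < en ((ρ : ℂ) • z) ∧ en ((ρ : ℂ) • z) < ρ₂ := by
    intro z hz
    rw [hsc]
    exact ⟨mul_lt_mul_of_pos_left hz.1 hρ0, mul_lt_mul_of_pos_left hz.2 hρ0⟩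
  set FF : Cm 2 → X := fun z => p (ψ ((ρ : ℂ) • z)) with hFF
  have hψSh : ∀ z ∈ UU, ψ ((ρ : ℂ) • z) ∈ Sh ∧ φ (ψ ((ρ : ℂ) • z)) = (ρ : ℂ) • z := by
    intro z hz
    obtain ⟨h1, h2⟩ := hUUr z hz
    obtain ⟨h3, h4⟩ := hψU _ (h10.trans h1) (h2.trans h2r)
    exact ⟨⟨h3, by rw [h4]; exact h1, by rw [h4]; exact h2⟩, h4⟩
  have hρC : (ρ : ℂ) ≠ 0 := by exact_mod_cast hρ0.ne'
  have hShψ : ∀ x ∈ Sh, (ρ : ℂ)⁻¹ • φ x ∈ UU ∧ ψ ((ρ : ℂ) • ((ρ : ℂ)⁻¹ • φ x)) = x := by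
    intro x hx
    have e : (ρ : ℂ) • ((ρ : ℂ)⁻¹ • φ x) = φ x := by
      rw [smul_smul, mul_inv_cancel₀ hρC, one_smul]
    refine ⟨?_, ?_⟩
    · have h1 := hsc ((ρ : ℂ)⁻¹ • φ x)
      rw [e] at h1
      have h2 := hx.2.1
      have h3 := hx.2.2
      rw [h1] at h2 h3
      exact ⟨lt_of_mul_lt_mul_left h2 hρ0.le, lt_of_mul_lt_mul_left h3 hρ0.le⟩
    · rw [e]
      exact hψφ x hx.1 (h10.trans hx.2.1) (hx.2.2.trans h2r)
  have hFimg : FF '' UU = p '' Sh := by
    ext y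
    constructor
    · rintro ⟨z, hz, rfl⟩
      exact ⟨_, (hψSh z hz).1, rfl⟩
    · rintro ⟨x, hx, rfl⟩
      exact ⟨_, (hShψ x hx).1, congrArg p (hShψ x hx).2⟩
  have hFinj : ∀ z ∈ UU, ∀ w ∈ UU, FF z = FF w → z = w := by
    intro z hz w hw h
    have h1 := hψSh z hz
    have h2 := hψSh w hw
    have h3 : ψ ((ρ : ℂ) • z) = ψ ((ρ : ℂ) • w) :=
      hkey _ _ h1.1 ⟨h2.1.1, h2.1.2.2⟩ (hShg _ h2.1) h
    have h4 : (ρ : ℂ) • z = (ρ : ℂ) • w := by rw [← h1.2, ← h2.2, h3]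
    exact smul_right_injective _ hρC h4
  classical
  have hUUne : UU.Nonempty := by
    obtain ⟨z, hz⟩ := (isConnected_en_sphere (ρ := 1) zero_le_one).nonempty
    have hz' : en z = 1 := hz
    exact ⟨z, by rw [hz']; linarith, by rw [hz']; linarith⟩
  have : Nonempty (Cm 2) := ⟨0⟩
  set GG : X → Cm 2 := fun y => if h : ∃ z ∈ UU, FF z = y then h.choose else 0 with hGG
  have hGGspec : ∀ z ∈ UU, GG (FF z) = z := by
    intro z hz
    have h : ∃ w ∈ UU, FF w = FF z := ⟨z, hz, rfl⟩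
    have h1 : GG (FF z) = h.choose := by
      simp only [hGG]
      rw [dif_pos h]
    rw [h1]
    exact hFinj _ h.choose_spec.1 _ hz h.choose_spec.2
  have hUUo : IsOpen UU := isOpen_Ioo.preimage continuous_en
  refine ⟨UU, FF, GG, hUUo, ?_, ?_, ?_, ?_, ?_, hGGspec, ?_⟩
  · intro h
    have h1 : 1 - δ < en (0 : Cm 2) := h.1
    rw [en_zero] at h1
    linarith
  · intro z hz
    have h1 : en z = 1 := by
      unfold en
      have : ‖z 0‖ ^ 2 + ‖z 1‖ ^ 2 = 1 := hz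
      rw [this, Real.sqrt_one]
    show 1 - δ < en z ∧ en z < 1 + δ
    rw [h1]
    constructor <;> linarith
  · rw [hFimg]
    exact hpo _ hSho
  · -- holomorphy of FF
    intro z hz
    obtain ⟨h1, h2⟩ := hUUr z hz
    have hmem : (ρ : ℂ) • z ∈ {z : Cm 2 | 0 < en z ∧ en z < r} := ⟨h10.trans h1, h2.trans h2r⟩
    have hopen : IsOpen {z : Cm 2 | 0 < en z ∧ en z < r} := isOpen_Ioo.preimage continuous_en
    have d1 : MDifferentiableAt 𝓘(ℂ, Cm 2) 𝓘(ℂ, Cm 2) ψ ((ρ : ℂ) • z) :=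
      hψ.mdifferentiableAt (hopen.mem_nhds hmem)
    have d2 : MDifferentiableAt 𝓘(ℂ, Cm 2) 𝓘(ℂ, Cm 2) (fun z : Cm 2 => (ρ : ℂ) • z) z := by
      rw [mdifferentiableAt_iff_differentiableAt]
      exact (differentiable_id.const_smul (ρ : ℂ)) z
    exact ((hp _).comp z (d1.comp z d2)).mdifferentiableWithinAt
  · -- holomorphy of GG
    rintro _ ⟨z, hz, rfl⟩
    apply MDifferentiableAt.mdifferentiableWithinAt
    obtain ⟨hzS, hzφ⟩ := hψSh z hz
    obtain ⟨q, hq1, hq2, hq3⟩ := hpq (ψ ((ρ : ℂ) • z))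
    have hqc : ContinuousAt q (p (ψ ((ρ : ℂ) • z))) := hq1.continuousAt
    have hev : ∀ᶠ y in 𝓝 (FF z), GG y = (ρ : ℂ)⁻¹ • φ (q y) := by
      have h1 : ∀ᶠ y in 𝓝 (FF z), q y ∈ Sh := by
        apply hqc.eventually_mem
        rw [hq2]
        exact hSho.mem_nhds hzS
      filter_upwards [h1, hq3] with y hy1 hy2
      obtain ⟨h3, h4⟩ := hShψ _ hy1
      have h5 : FF ((ρ : ℂ)⁻¹ • φ (q y)) = y := by
        simp only [hFF]
        rw [h4, hy2]
      conv_lhs => rw [← h5]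
      exact hGGspec _ h3
    have d1 : MDifferentiableAt 𝓘(ℂ, Cm 2) 𝓘(ℂ, Cm 2) φ (q (FF z)) := by
      have : q (FF z) = ψ ((ρ : ℂ) • z) := hq2
      rw [this]
      exact hφ.mdifferentiableAt (hU.mem_nhds hzS.1)
    have d2 : MDifferentiableAt 𝓘(ℂ, Cm 2) 𝓘(ℂ, Cm 2) (fun y => φ (q y)) (FF z) :=
      d1.comp (FF z) hq1
    have d3 : MDifferentiableAt 𝓘(ℂ, Cm 2) 𝓘(ℂ, Cm 2) (fun z : Cm 2 => (ρ : ℂ)⁻¹ • z)
        (φ (q (FF z))) := by
      rw [mdifferentiableAt_iff_differentiableAt]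
      exact (differentiable_id.const_smul (ρ : ℂ)⁻¹) _
    have d4 : MDifferentiableAt 𝓘(ℂ, Cm 2) 𝓘(ℂ, Cm 2) (fun y => (ρ : ℂ)⁻¹ • φ (q y)) (FF z) :=
      d3.comp (FF z) d2
    exact d4.congr_of_eventuallyEq hev
  · rw [hFimg, hcompl]
    exact hAconn.image _ hp.continuous.continuousOn

end Core

end

end Vale.Agent.P267.H498
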