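import Mathlib
import Vale.Agent.P267.H498.Kato1
import Vale.Agent.P272.GEO.Osgood

/-!
# P267 / G-KATO (helper498), part 2: nilpotent germs; version with a doubling estimate.
-/

open scoped Manifold ContDiff Topology
open Vale.Agent.P272.K Set Filter

namespace Vale.Agent.P267.H498

noncomputable section

lemma sq_eq_zero_of_nilpotent {A : Cm 2 →L[ℂ] Cm 2} (hA : IsNilpotent A) (z : Cm 2) :
    A (A z) = 0 := by
  have h1 : IsNilpotent (A : Module.End ℂ (Cm 2)) := by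
    obtain ⟨k, hk⟩ := hA
    refine ⟨k, ?_⟩
    have e : ∀ (n : ℕ) (w : Cm 2), ((A : Module.End ℂ (Cm 2)) ^ n) w = (A ^ n) w := by
      intro n
      induction n with
      | zero => intro w; simp
      | succ n ih =>
        intro w
        rw [pow_succ, pow_succ]
        exact ih (A w)
    refine LinearMap.ext fun z => ?_
    rw [e, hk]; rfl
  have h2 := h1.charpoly_eq_X_pow_finrank
  have h3 := LinearMap.aeval_self_charpoly (A : Module.End ℂ (Cm 2))
  rw [h2] at h3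
  simp only [map_pow, Polynomial.aeval_X, Module.finrank_fin_fun] at h3
  have := congrArg (fun B : Module.End ℂ (Cm 2) => B z) h3
  simpa [pow_two] using this

/-- A nilpotent endomorphism of `ℂ²` has small norm in suitable linear coordinates. -/
lemma exists_equiv_small {A : Cm 2 →L[ℂ] Cm 2} (hA : IsNilpotent A) {ε : ℝ} (hε : 0 < ε) :
    ∃ L : Cm 2 ≃L[ℂ] Cm 2, ∀ z, en (L (A z)) ≤ ε * en (L z) := by
  by_cases hA0 : ∀ v, A v = 0
  · refine ⟨ContinuousLinearEquiv.refl ℂ _, fun z => ?_⟩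
    rw [hA0]
    simp only [map_zero, en_zero]
    exact mul_nonneg hε.le (en_nonneg _)
  · rw [not_forall] at hA0
    obtain ⟨v, hv⟩ := hA0
    have hεC : (ε : ℂ) ≠ 0 := by exact_mod_cast hε.ne'
    have hAA := sq_eq_zero_of_nilpotent hA
    have hli : LinearIndependent ℂ ![A v, (ε : ℂ) • v] := by
      rw [LinearIndependent.pair_iff]
      intro s t hst
      have h1 := congrArg A hst
      simp only [map_add, map_smul, hAA, smul_zero, zero_add, map_zero] at h1
      rw [smul_smul, smul_eq_zero] at h1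
      have ht : t = 0 := by
        rcases h1 with h | h
        · rcases mul_eq_zero.1 h with h | h
          · exact h
          · exact absurd h hεC
        · exact absurd h hv
      rw [ht, zero_smul, add_zero, smul_eq_zero] at hst
      rcases hst with h | h
      · exact ⟨h, ht⟩
      · exact absurd h hv
    let b := basisOfLinearIndependentOfCardEqFinrank hli (by simp)
    have hb0 : b 0 = A v := by simp [b]
    have hb1 : b 1 = (ε : ℂ) • v := by simp [b]
    let L : Cm 2 ≃L[ℂ] Cm 2 := b.equivFun.toContinuousLinearEquiv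
    refine ⟨L, fun z => ?_⟩
    have hz : z = (L z 0) • A v + (L z 1) • ((ε : ℂ) • v) := by
      have := b.sum_equivFun z
      rw [Fin.sum_univ_two, hb0, hb1] at this
      exact this.symm
    have hAz : A z = ((L z 1) * (ε : ℂ)) • b 0 := by
      conv_lhs => rw [hz]
      rw [map_add, map_smul, map_smul, map_smul, hAA, smul_zero, zero_add, smul_smul, hb0]
    have hL0 : L (b 0) = Pi.single 0 1 := by
      have : b.equivFun (b 0) = Pi.single 0 1 := by
        ext i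
        rw [Module.Basis.equivFun_self]
        simp [Pi.single_apply, eq_comm]
      exact this
    rw [hAz, map_smul, hL0, en_smul]
    have h1 : en (Pi.single 0 1 : Cm 2) = 1 := by
      unfold en
      simp
    rw [h1, mul_one, norm_mul, Complex.norm_real, Real.norm_of_nonneg hε.le, mul_comm]
    apply mul_le_mul_of_nonneg_left _ hε.le
    unfold en
    apply Real.le_sqrt_of_sq_le
    nlinarith [sq_nonneg ‖L z 0‖]

section Germ

variable {X M : Type*} [TopologicalSpace X] [ChartedSpace (Cm 2) X]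
  [TopologicalSpace M] [ChartedSpace (Cm 2) M] [ConnectedSpace M]

/-- **G-KATO, germ version**: the germ `F` of the inward shift has nilpotent differential. -/
theorem hasGSS_of_germ
    (p : M → X) (g : M ≃ₜ M) (f : M → ℝ)
    (hp : MDifferentiable 𝓘(ℂ, Cm 2) 𝓘(ℂ, Cm 2) p) (hps : Function.Surjective p)
    (hpo : IsOpenMap p)
    (hpq : ∀ x, ∃ q : X → M, MDifferentiableAt 𝓘(ℂ, Cm 2) 𝓘(ℂ, Cm 2) q (p x) ∧ q (p x) = x ∧
      ∀ᶠ y in 𝓝 (p x), p (q y) = y)
    (hpg : ∀ x y, p x = p y ↔ ∃ k : ℤ, (g ^ k) x = y)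
    (hfg : ∀ x, f (g x) = f x - 1)
    {U : Set M} (hU : IsOpen U) {φ : M → Cm 2} {ψ : Cm 2 → M} {r : ℝ} (hr : 0 < r)
    (hφ : MDifferentiableOn 𝓘(ℂ, Cm 2) 𝓘(ℂ, Cm 2) φ U)
    (hψ : MDifferentiableOn 𝓘(ℂ, Cm 2) 𝓘(ℂ, Cm 2) ψ {z | 0 < ‖z‖ ∧ ‖z‖ < r})
    (hψU : ∀ z, 0 < ‖z‖ → ‖z‖ < r → ψ z ∈ U ∧ φ (ψ z) = z)
    (hψφ : ∀ x ∈ U, 0 < ‖φ x‖ → ‖φ x‖ < r → ψ (φ x) = x)
    (hcl : ∀ s, s < r → IsClosed {x | x ∈ U ∧ ‖φ x‖ ≤ s})
    (hin : ∀ s, 0 < s → ∃ R, ∀ x, f x ≤ R → x ∈ U ∧ ‖φ x‖ < s)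
    (hout : ∃ R, ∀ x ∈ U, f x ≤ R)
    {F : Cm 2 → Cm 2} (hF0 : F 0 = 0) {A : Cm 2 →L[ℂ] Cm 2} (hFA : HasFDerivAt F A 0)
    (hA : IsNilpotent A) {r₀ : ℝ} (hr₀ : 0 < r₀)
    (hg : ∀ x ∈ U, ‖φ x‖ < r₀ → g x ∈ U ∧ φ (g x) = F (φ x)) :
    HasGSS X := by
  obtain ⟨L, hL⟩ := exists_equiv_small hA (ε := 1 / 4) (by norm_num)
  set a : ℝ := ‖(L : Cm 2 →L[ℂ] Cm 2)‖ + 1 with ha
  set b : ℝ := ‖(L.symm : Cm 2 →L[ℂ] Cm 2)‖ + 1 with hb
  have ha0 : 0 < a := by positivity
  have hb0 : 0 < b := by positivity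
  have hLa : ∀ z, en (L z) ≤ 2 * a * ‖z‖ := by
    intro z
    have h1 := en_le (L z)
    have h2 : ‖L z‖ ≤ ‖(L : Cm 2 →L[ℂ] Cm 2)‖ * ‖z‖ := (L : Cm 2 →L[ℂ] Cm 2).le_opNorm z
    have h3 := norm_nonneg z
    nlinarith
  have hLb : ∀ z, ‖L.symm z‖ ≤ b * en z := by
    intro z
    have h2 : ‖L.symm z‖ ≤ ‖(L.symm : Cm 2 →L[ℂ] Cm 2)‖ * ‖z‖ :=
      (L.symm : Cm 2 →L[ℂ] Cm 2).le_opNorm z
    have h3 := norm_le_en z
    have h4 := norm_nonneg z
    have h5 : 0 ≤ ‖(L.symm : Cm 2 →L[ℂ] Cm 2)‖ := norm_nonneg _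
    nlinarith
  have hLb' : ∀ z, ‖z‖ ≤ b * en (L z) := by
    intro z
    have := hLb (L z)
    rwa [L.symm_apply_apply] at this
  -- contraction of the germ
  obtain ⟨s₁, hs₁, hs₁F⟩ : ∃ s₁ > 0, ∀ z : Cm 2, ‖z‖ < s₁ → en (L (F z)) ≤ (1 / 2) * en (L z) := by
    have ho := hFA.isLittleO
    simp only [hF0, sub_zero] at ho
    have hcpos : 0 < 1 / (8 * a * b) := by positivity
    have := ho.def hcpos
    obtain ⟨s, hs, hsub⟩ := Metric.eventually_nhds_iff.1 this
    refine ⟨s, hs, fun z hz => ?_⟩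
    have h1 : ‖F z - A z‖ ≤ 1 / (8 * a * b) * ‖z‖ := hsub (by simpa using hz)
    have e : L (F z) = L (A z) + L (F z - A z) := by rw [← map_add]; congr 1; abel
    rw [e]
    have h2 := en_add_le (L (A z)) (L (F z - A z))
    have h3 := hL z
    have h4 := hLa (F z - A z)
    have h5 : 2 * a * ‖F z - A z‖ ≤ (1 / 4) * en (L z) := by
      calc 2 * a * ‖F z - A z‖ ≤ 2 * a * (1 / (8 * a * b) * ‖z‖) := by gcongr
        _ ≤ 2 * a * (1 / (8 * a * b) * (b * en (L z))) := by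
            gcongr
            exact hLb' z
        _ = (1 / 4) * en (L z) := by field_simp; ring
    linarith
  -- the new radius
  set m : ℝ := min r (min r₀ s₁) with hm
  have hm0 : 0 < m := lt_min hr (lt_min hr₀ hs₁)
  set r' : ℝ := m / b with hr'
  have hr'0 : 0 < r' := by positivity
  have hsmall : ∀ z, en (L z) < r' → ‖z‖ < m := by
    intro z hz
    calc ‖z‖ ≤ b * en (L z) := hLb' z
      _ < b * r' := by gcongr
      _ = m := by rw [hr']; field_simp
  have hsmall' : ∀ z, en z < r' → ‖L.symm z‖ < m := by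
    intro z hz
    apply hsmall
    rwa [L.apply_symm_apply]
  have hmr : m ≤ r := min_le_left _ _
  have hmr₀ : m ≤ r₀ := (min_le_right _ _).trans (min_le_left _ _)
  have hms : m ≤ s₁ := (min_le_right _ _).trans (min_le_right _ _)
  have hLd : ∀ z : Cm 2, MDifferentiableAt 𝓘(ℂ, Cm 2) 𝓘(ℂ, Cm 2) (fun z => L z) z := fun z => by
    rw [mdifferentiableAt_iff_differentiableAt]
    exact L.differentiableAt
  have hLsd : ∀ z : Cm 2, MDifferentiableAt 𝓘(ℂ, Cm 2) 𝓘(ℂ, Cm 2) (fun z => L.symm z) z :=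
    fun z => by
      rw [mdifferentiableAt_iff_differentiableAt]
      exact L.symm.differentiableAt
  have hposL : ∀ z : Cm 2, 0 < en (L z) → 0 < ‖z‖ := by
    intro z hz
    rw [norm_pos_iff]
    rintro rfl
    rw [map_zero, en_zero] at hz
    exact lt_irrefl _ hz
  have hposL' : ∀ z : Cm 2, 0 < en z → 0 < ‖L.symm z‖ := by
    intro z hz
    apply hposL
    rwa [L.apply_symm_apply]
  refine hasGSS_core p g f hp hps hpo hpq hpg hfg hU (φ := fun x => L (φ x))
    (ψ := fun z => ψ (L.symm z)) (r := r') hr'0 ?_ ?_ ?_ ?_ ?_ ?_ hout (c := 1 / 2) (by norm_num)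
    (by norm_num) ?_
  · intro x hx
    have h1 : MDifferentiableAt 𝓘(ℂ, Cm 2) 𝓘(ℂ, Cm 2) φ x := hφ.mdifferentiableAt (hU.mem_nhds hx)
    exact ((hLd (φ x)).comp x h1).mdifferentiableWithinAt
  · intro z hz
    have hopen : IsOpen {z : Cm 2 | 0 < ‖z‖ ∧ ‖z‖ < r} := isOpen_Ioo.preimage continuous_norm
    have h1 : MDifferentiableAt 𝓘(ℂ, Cm 2) 𝓘(ℂ, Cm 2) ψ (L.symm z) :=
      hψ.mdifferentiableAt (hopen.mem_nhds ⟨hposL' z hz.1, (hsmall' z hz.2).trans_le hmr⟩)
    exact (h1.comp z (hLsd z)).mdifferentiableWithinAt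
  · intro z hz1 hz2
    obtain ⟨h1, h2⟩ := hψU (L.symm z) (hposL' z hz1) ((hsmall' z hz2).trans_le hmr)
    refine ⟨h1, ?_⟩
    show L (φ (ψ (L.symm z))) = z
    rw [h2, L.apply_symm_apply]
  · intro x hx h1 h2
    show ψ (L.symm (L (φ x))) = x
    rw [L.symm_apply_apply]
    exact hψφ x hx (hposL _ h1) ((hsmall _ h2).trans_le hmr)
  · intro s hs
    by_cases hs0 : s < 0
    · convert isClosed_empty
      ext x
      simp only [mem_ofPred_eq, mem_empty_iff_false, iff_false, not_and, not_le]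
      intro _
      exact lt_of_lt_of_le hs0 (en_nonneg _)
    · rw [not_lt] at hs0
      have hs' : b * s < r := by
        calc b * s < b * r' := by gcongr
          _ = m := by rw [hr']; field_simp
          _ ≤ r := hmr
      have h1 := hcl (b * s) hs'
      have e : {x | x ∈ U ∧ en (L (φ x)) ≤ s}
          = {x | x ∈ U ∧ ‖φ x‖ ≤ b * s} ∩ (fun x => en (L (φ x))) ⁻¹' (Iic s) := by
        ext x
        constructor
        · rintro ⟨h2, h3⟩
          exact ⟨⟨h2, (hLb' _).trans (by gcongr)⟩, h3⟩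
        · rintro ⟨⟨h2, _⟩, h3⟩
          exact ⟨h2, h3⟩
      rw [e]
      apply ContinuousOn.preimage_isClosed_of_isClosed _ h1 isClosed_Iic
      exact (continuous_en.comp L.continuous).comp_continuousOn
        (hφ.continuousOn.mono fun x hx => hx.1)
  · intro s hs
    obtain ⟨R, hR⟩ := hin (s / (2 * a)) (by positivity)
    refine ⟨R, fun x hx => ⟨(hR x hx).1, ?_⟩⟩
    calc en (L (φ x)) ≤ 2 * a * ‖φ x‖ := hLa _
      _ < 2 * a * (s / (2 * a)) := by
          have := (hR x hx).2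
          gcongr
      _ = s := by field_simp
  · intro x hx h
    have h1 := hsmall _ h
    obtain ⟨h2, h3⟩ := hg x hx (h1.trans_le hmr₀)
    refine ⟨h2, ?_⟩
    show en (L (φ (g x))) ≤ 1 / 2 * en (L (φ x))
    rw [h3]
    exact hs₁F _ (h1.trans_le hms)

end Germ

/-- Removable point singularity in dimension two. -/
lemma differentiableOn_of_punctured {F : Cm 2 → Cm 2} {r : ℝ}
    (hd : ∀ z, 0 < ‖z‖ → ‖z‖ < r → DifferentiableAt ℂ F z) (hc : ContinuousAt F 0) :
    DifferentiableOn ℂ F (Metric.ball 0 r) := by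
  apply Vale.Agent.P272.GEO.osgood Metric.isOpen_ball
  · intro z hz
    by_cases h0 : z = 0
    · rw [h0]; exact hc.continuousWithinAt
    · exact (hd z (norm_pos_iff.2 h0) (by simpa using hz)).continuousAt.continuousWithinAt
  · intro x hx i
    have hup : Differentiable ℂ (fun τ : ℂ => Function.update x i τ) := by
      rw [differentiable_pi]
      intro j
      by_cases hj : j = i
      · subst hj
        simp only [Function.update_self]
        exact differentiable_id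
      · simp only [Function.update_of_ne hj]
        exact differentiable_const _
    by_cases h0 : x = 0
    · subst h0
      have hr : 0 < r := by simpa using hx
      have hF0 : Function.update (0 : Cm 2) i (0 : ℂ) = 0 := by
        ext j
        by_cases hj : j = i
        · subst hj; simp
        · simp [Function.update_of_ne hj]
      have hcont : ContinuousAt (fun τ : ℂ => F (Function.update (0 : Cm 2) i τ)) 0 := by
        apply ContinuousAt.comp (g := F)
        · rw [hF0]; exact hc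
        · exact hup.continuous.continuousAt
      have hpun : ∀ᶠ τ in 𝓝[≠] (0 : ℂ), DifferentiableAt ℂ
          (fun τ : ℂ => F (Function.update (0 : Cm 2) i τ)) τ := by
        have h1 : ∀ᶠ τ in 𝓝[≠] (0 : ℂ), ‖Function.update (0 : Cm 2) i τ‖ < r := by
          have h2 : ContinuousAt (fun τ : ℂ => ‖Function.update (0 : Cm 2) i τ‖) 0 :=
            hup.continuous.norm.continuousAt
          have h3 : ‖Function.update (0 : Cm 2) i (0 : ℂ)‖ < r := by rw [hF0]; simpa using hr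
          exact (h2.eventually (gt_mem_nhds h3)).filter_mono nhdsWithin_le_nhds
        filter_upwards [h1, self_mem_nhdsWithin] with τ hτ hτ0
        have hne : Function.update (0 : Cm 2) i τ ≠ 0 := by
          intro h
          apply hτ0
          have := congrFun h i
          simpa using this
        exact (hd _ (norm_pos_iff.2 hne) hτ).comp τ (hup τ)
      have := Complex.analyticAt_of_differentiable_on_punctured_nhds_of_continuousAt hpun hcont
      simpa using this.differentiableAt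
    · have h1 := hd x (norm_pos_iff.2 h0) (by simpa using hx)
      have e : Function.update x i (x i) = x := Function.update_eq_self i x
      have h2 : DifferentiableAt ℂ F (Function.update x i (x i)) := by rw [e]; exact h1
      exact h2.comp (x i) (hup (x i))

section Doubling

variable {X M : Type*} [TopologicalSpace X] [ChartedSpace (Cm 2) X]
  [TopologicalSpace M] [ChartedSpace (Cm 2) M] [ConnectedSpace M]

/-- **G-KATO, final version** with the doubling estimate. -/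
theorem hasGSS_of_doubling
    (p : M → X) (g : M ≃ₜ M) (f : M → ℝ)
    (hp : MDifferentiable 𝓘(ℂ, Cm 2) 𝓘(ℂ, Cm 2) p) (hps : Function.Surjective p)
    (hpo : IsOpenMap p)
    (hpq : ∀ x, ∃ q : X → M, MDifferentiableAt 𝓘(ℂ, Cm 2) 𝓘(ℂ, Cm 2) q (p x) ∧ q (p x) = x ∧
      ∀ᶠ y in 𝓝 (p x), p (q y) = y)
    (hpg : ∀ x y, p x = p y ↔ ∃ k : ℤ, (g ^ k) x = y)
    (hgd : MDifferentiable 𝓘(ℂ, Cm 2) 𝓘(ℂ, Cm 2) g)
    (hfg : ∀ x, f (g x) = f x - 1)
    {U : Set M} (hU : IsOpen U) {φ : M → Cm 2} {ψ : Cm 2 → M} {r : ℝ} (hr : 0 < r)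
    (hφ : MDifferentiableOn 𝓘(ℂ, Cm 2) 𝓘(ℂ, Cm 2) φ U)
    (hψ : MDifferentiableOn 𝓘(ℂ, Cm 2) 𝓘(ℂ, Cm 2) ψ {z | 0 < ‖z‖ ∧ ‖z‖ < r})
    (hψU : ∀ z, 0 < ‖z‖ → ‖z‖ < r → ψ z ∈ U ∧ φ (ψ z) = z)
    (hψφ : ∀ x ∈ U, 0 < ‖φ x‖ → ‖φ x‖ < r → ψ (φ x) = x)
    (hcl : ∀ s, s < r → IsClosed {x | x ∈ U ∧ ‖φ x‖ ≤ s})
    (hin : ∀ s, 0 < s → ∃ R, ∀ x, f x ≤ R → x ∈ U ∧ ‖φ x‖ < s)
    (hout : ∃ R, ∀ x ∈ U, f x ≤ R)
    {r₀ : ℝ} (hr₀ : 0 < r₀) (hgU : ∀ x ∈ U, ‖φ x‖ < r₀ → g x ∈ U)
    (hg0 : ∀ ε, 0 < ε → ∃ d, 0 < d ∧ ∀ x ∈ U, ‖φ x‖ < d → ‖φ (g x)‖ < ε)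
    {K : ℕ} {C : ℝ} {r₁ : ℝ} (hr₁ : 0 < r₁)
    (hdbl : ∀ x ∈ U, ‖φ x‖ < r₁ → ‖φ (g^[K] x)‖ ≤ C * ‖φ x‖ ^ 2) :
    HasGSS X := by
  classical
  set ρ : ℝ := min r r₀ with hρ
  have hρ0 : 0 < ρ := lt_min hr hr₀
  have hρr : ρ ≤ r := min_le_left _ _
  have hρr₀ : ρ ≤ r₀ := min_le_right _ _
  -- the germ
  set F : Cm 2 → Cm 2 := fun z => if z = 0 then 0 else φ (g (ψ z)) with hF
  have hF0 : F 0 = 0 := by simp [hF]
  have hFz : ∀ z, z ≠ 0 → F z = φ (g (ψ z)) := fun z hz => by simp [hF, hz]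
  have hS : ∀ x ∈ U, φ x = 0 → φ (g x) = 0 := by
    intro x hx h0
    by_contra hne
    obtain ⟨d, hd, hd'⟩ := hg0 ‖φ (g x)‖ (norm_pos_iff.2 hne)
    have := hd' x hx (by rw [h0, norm_zero]; exact hd)
    exact lt_irrefl _ this
  have hgF : ∀ x ∈ U, ‖φ x‖ < ρ → g x ∈ U ∧ φ (g x) = F (φ x) := by
    intro x hx hxρ
    refine ⟨hgU x hx (hxρ.trans_le hρr₀), ?_⟩
    by_cases h0 : φ x = 0
    · rw [h0, hF0, hS x hx h0]
    · rw [hFz _ h0, hψφ x hx (norm_pos_iff.2 h0) (hxρ.trans_le hρr)]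
  have hcont : ContinuousAt F 0 := by
    rw [Metric.continuousAt_iff]
    intro ε hε
    obtain ⟨d, hd, hd'⟩ := hg0 ε hε
    refine ⟨min d ρ, lt_min hd hρ0, fun {z} hz => ?_⟩
    rw [hF0, dist_zero_right]
    rw [dist_zero_right] at hz
    by_cases h0 : z = 0
    · rw [h0, hF0, norm_zero]; exact hε
    · obtain ⟨h1, h2⟩ := hψU z (norm_pos_iff.2 h0)
        (hz.trans_le ((min_le_right _ _).trans hρr))
      rw [hFz z h0]
      apply hd' _ h1
      rw [h2]
      exact hz.trans_le (min_le_left _ _)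
  have hdiff : ∀ z : Cm 2, 0 < ‖z‖ → ‖z‖ < ρ → DifferentiableAt ℂ F z := by
    intro z hz0 hzρ
    obtain ⟨h1, h2⟩ := hψU z hz0 (hzρ.trans_le hρr)
    have hopen : IsOpen {z : Cm 2 | 0 < ‖z‖ ∧ ‖z‖ < r} := isOpen_Ioo.preimage continuous_norm
    have d1 : MDifferentiableAt 𝓘(ℂ, Cm 2) 𝓘(ℂ, Cm 2) ψ z :=
      hψ.mdifferentiableAt (hopen.mem_nhds ⟨hz0, hzρ.trans_le hρr⟩)
    have h3 : g (ψ z) ∈ U := hgU _ h1 (by rw [h2]; exact hzρ.trans_le hρr₀)
    have d2 : MDifferentiableAt 𝓘(ℂ, Cm 2) 𝓘(ℂ, Cm 2) φ (g (ψ z)) :=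
      hφ.mdifferentiableAt (hU.mem_nhds h3)
    have d3 : MDifferentiableAt 𝓘(ℂ, Cm 2) 𝓘(ℂ, Cm 2) (fun z => φ (g (ψ z))) z :=
      d2.comp z ((hgd _).comp z d1)
    rw [mdifferentiableAt_iff_differentiableAt] at d3
    refine d3.congr_of_eventuallyEq ?_
    have : ({0} : Set (Cm 2))ᶜ ∈ 𝓝 z :=
      isClosed_singleton.isOpen_compl.mem_nhds (by simpa using (norm_pos_iff.1 hz0))
    filter_upwards [this] with w hw
    exact hFz w hw
  have hFd : DifferentiableAt ℂ F 0 :=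
    (differentiableOn_of_punctured hdiff hcont).differentiableAt
      (Metric.isOpen_ball.mem_nhds (by simpa using hρ0))
  set A := fderiv ℂ F 0 with hA
  have hFA : HasFDerivAt F A 0 := hFd.hasFDerivAt
  -- iterates
  have hit : ∀ n : ℕ, ∃ d, 0 < d ∧ ∀ x ∈ U, ‖φ x‖ < d → g^[n] x ∈ U ∧ φ (g^[n] x) = F^[n] (φ x) := by
    intro n
    induction n with
    | zero => exact ⟨1, one_pos, fun x hx _ => ⟨hx, rfl⟩⟩
    | succ n ih =>
      obtain ⟨d, hd, hd'⟩ := ih
      have hFn : ContinuousAt (F^[n]) 0 := by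
        apply ContinuousAt.iterate hcont hF0
      have hFn0 : F^[n] 0 = 0 := Function.iterate_fixed hF0 n
      obtain ⟨e, he, he'⟩ := Metric.continuousAt_iff.1 hFn ρ hρ0
      refine ⟨min d e, lt_min hd he, fun x hx hxd => ?_⟩
      obtain ⟨h1, h2⟩ := hd' x hx (hxd.trans_le (min_le_left _ _))
      have h3 : ‖φ (g^[n] x)‖ < ρ := by
        have := he' (x := φ x) (by simpa using hxd.trans_le (min_le_right _ _))
        rw [hFn0, dist_zero_right] at this
        rw [h2]; exact this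
      obtain ⟨h4, h5⟩ := hgF _ h1 h3
      rw [Function.iterate_succ_apply', Function.iterate_succ_apply']
      exact ⟨h4, by rw [h5, h2]⟩
  have hAK : A ^ K = 0 := by
    have h1 : HasFDerivAt (F^[K]) (A ^ K) 0 := hFA.iterate hF0 K
    have hFn0 : F^[K] 0 = 0 := Function.iterate_fixed hF0 K
    obtain ⟨d, hd, hd'⟩ := hit K
    have h2 : HasFDerivAt (F^[K]) (0 : Cm 2 →L[ℂ] Cm 2) 0 := by
      rw [hasFDerivAt_iff_isLittleO_nhds_zero]
      have hO : (fun z : Cm 2 => F^[K] (0 + z) - F^[K] 0 - (0 : Cm 2 →L[ℂ] Cm 2) z)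
          =O[𝓝 0] fun z => ‖z‖ ^ 2 := by
        rw [Asymptotics.isBigO_iff]
        refine ⟨C, ?_⟩
        have hev : Metric.ball (0 : Cm 2) (min d (min r₁ r)) ∈ 𝓝 0 :=
          Metric.ball_mem_nhds _ (lt_min hd (lt_min hr₁ hr))
        filter_upwards [hev] with z hz
        rw [mem_ball_zero_iff] at hz
        simp only [zero_add, hFn0, sub_zero, zero_apply]
        by_cases h0 : z = 0
        · rw [h0, hFn0]; simp
        · have hzd := hz.trans_le (min_le_left _ _)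
          have hz1 := hz.trans_le ((min_le_right _ _).trans (min_le_left _ _))
          have hzr := hz.trans_le ((min_le_right _ _).trans (min_le_right _ _))
          obtain ⟨h3, h4⟩ := hψU z (norm_pos_iff.2 h0) hzr
          have h5 := (hd' _ h3 (by rw [h4]; exact hzd)).2
          rw [h4] at h5
          have h6 := hdbl _ h3 (by rw [h4]; exact hz1)
          rw [h5, h4] at h6
          simpa using h6
      refine hO.trans_isLittleO ?_
      have := Asymptotics.isLittleO_norm_pow_id (E' := Cm 2) (n := 2) (by norm_num)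
      exact this
    exact h1.unique h2
  exact hasGSS_of_germ p g f hp hps hpo hpq hpg hfg hU hr hφ hψ hψU hψφ hcl hin hout hF0 hFA
    ⟨K, hAK⟩ hρ0 hgF

end Doubling

end

end Vale.Agent.P267.H498
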